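import Vale.Agent.P300.H307.PU
import Vale.Agent.P300.H918.Newt

/-!
# P300 [CHOW]: the characteristic polynomial of a linear form, from the weak holomorphy of traces
-/

open Complex Filter Set MeasureTheory Metric
open scoped Topology ContDiff ENNReal

namespace Vale.Agent.P300.H307

open Vale.Agent.P300.H86

variable {n : ℕ}

theorem polyProp (S : Aff n) (hTr : S.TrProp) : S.PolyProp := by
  classical
  intro ξ
  -- the fibres as finite sets
  have hF := finfProp S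
  let Sf : W → Finset (Fin n → ℂ) := fun w => if h : (S.fib w).Finite then h.toFinset else ∅
  have hSf : ∀ w, (S.fib w).Finite → ∀ v, v ∈ Sf w ↔ v ∈ S.Z ∧ S.pr v = w := by
    intro w hw v
    simp only [Sf, dif_pos hw, Set.Finite.mem_toFinset]
    rfl
  have hTsum : ∀ g : (Fin n → ℂ) → ℂ, ∀ w, (S.fib w).Finite → S.T g w = ∑ v ∈ Sf w, g v := by
    intro g w hw
    unfold Aff.T
    have : Fintype (S.fib w) := hw.fintype
    rw [tsum_fintype]
    have h1 : Sf w = (S.fib w).toFinset := by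
      ext v; simp only [Sf, dif_pos hw, Set.Finite.mem_toFinset, Set.mem_toFinset]
    rw [h1]
    exact Finset.sum_set_coe (S.fib w)
  -- the number of points of the fibre
  obtain ⟨hl1, hw1⟩ := hTr (fun _ => 1) (differentiable_const _)
  obtain ⟨c, hc⟩ := const_of_weakHol hl1 hw1 (by
    intro w
    unfold Aff.T
    have : (∑' _ : S.fib w, (1 : ℂ)) = ((∑' _ : S.fib w, (1 : ℝ) : ℝ) : ℂ) := by
      rw [Complex.ofReal_tsum]; simp
    rw [this, Complex.ofReal_im])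
  have hcN : ∃ N : ℕ, (N : ℂ) = c := by
    obtain ⟨w, hw, hwf⟩ := (hc.and hF).exists
    refine ⟨(Sf w).card, ?_⟩
    rw [← hw, hTsum _ w hwf.1]; simp
  obtain ⟨N, hN⟩ := hcN
  -- the growth constant
  obtain ⟨C, hC⟩ := S.growth
  -- power sums
  have hpow : ∀ m : ℕ, ∃ P : MvPolynomial (Fin 2) ℂ, P.totalDegree ≤ m ∧
      ∀ᵐ w, S.T (fun v => ξ v ^ m) w = MvPolynomial.eval w P := by
    intro m
    obtain ⟨hl, hwh⟩ := hTr (fun v => ξ v ^ m) (ξ.differentiable.pow m)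
    refine poly_of_weakHol hl hwh m (N * (‖ξ‖ * |C|) ^ m) ?_
    filter_upwards [hc, hF] with w hw hwf
    have hcard : ((Sf w).card : ℂ) = N := by
      rw [hN, ← hw, hTsum _ w hwf.1]; simp
    have hcard' : (Sf w).card = N := by exact_mod_cast hcard
    rw [hTsum _ w hwf.1]
    have hterm : ∀ v ∈ Sf w, ‖ξ v ^ m‖ ≤ (‖ξ‖ * |C|) ^ m * (1 + ‖w‖) ^ m := by
      intro v hv
      obtain ⟨hvZ, hvw⟩ := (hSf w hwf.1 v).1 hv
      rw [norm_pow, ← mul_pow]
      apply pow_le_pow_left₀ (norm_nonneg _)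
      calc ‖ξ v‖ ≤ ‖ξ‖ * ‖v‖ := ξ.le_opNorm v
        _ ≤ ‖ξ‖ * (|C| * (1 + ‖w‖)) := by
            gcongr
            have := hC v hvZ
            rw [hvw] at this
            refine this.trans ?_
            gcongr
            exact le_abs_self C
        _ = _ := by ring
    calc ‖∑ v ∈ Sf w, ξ v ^ m‖ ≤ ∑ v ∈ Sf w, ‖ξ v ^ m‖ := norm_sum_le _ _
      _ ≤ ∑ v ∈ Sf w, (‖ξ‖ * |C|) ^ m * (1 + ‖w‖) ^ m := Finset.sum_le_sum hterm
      _ = N * (‖ξ‖ * |C|) ^ m * (1 + ‖w‖) ^ m := by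
          rw [Finset.sum_const, hcard', nsmul_eq_mul]; ring
  choose P hPd hPe using hpow
  let Good : Set W := {w | (S.fib w).Finite ∧ S.T (fun _ => 1) w = c ∧
    ∀ m, S.T (fun v => ξ v ^ m) w = MvPolynomial.eval w (P m)}
  have hcardG : ∀ w ∈ Good, (Sf w).card = N := by
    rintro w ⟨h1, h2, -⟩
    have hcard : ((Sf w).card : ℂ) = N := by
      rw [hN, ← h2, hTsum _ w h1]; simp
    exact_mod_cast hcard
  obtain ⟨G, hG, hGe⟩ := H918.newt N Good Sf ξ P hPd hcardG (by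
    rintro w ⟨h1, -, h3⟩ m
    rw [← h3 m, hTsum _ w h1])
  refine ⟨N, G, hG, ?_⟩
  filter_upwards [hc, hF, ae_all_iff.2 hPe] with w h1 h2 h3
  have hwG : w ∈ Good := ⟨h2.1, h1, h3⟩
  exact ⟨Sf w, hSf w h2.1, hcardG w hwG, hGe w hwG⟩

end Vale.Agent.P300.H307
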