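import Vale.Agent.P300.H86.Proj

/-!
# P300 [CHOW]: the projection of the affine part is locally biholomorphic where `(l₀, l₁, l₂)` is
injective on the tangent space of the cone
-/

open Complex Filter Set Metric
open scoped Topology

namespace Vale.Agent.P300.H307

open Vale.Agent.P300.H86

variable {n : ℕ} {C : Set (Fin n → ℂ)}

theorem W_decomp (w : W) : w = w 0 • (Pi.single 0 1 : W) + w 1 • (Pi.single 1 1 : W) := by
  ext i
  fin_cases i <;> simp

/-- the derivative of the normalised chart. -/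
theorem hasFDerivAt_aff (A : ProjAtlas C) (l : (Fin n → ℂ) →L[ℂ] ℂ) {i : A.ι} {u : W}
    (hu : u ∈ A.D i) (h0 : l (A.F i u) ≠ 0) :
    ∃ g' : W →L[ℂ] (Fin n → ℂ), HasFDerivAt (fun x => (l (A.F i x))⁻¹ • A.F i x) g' u ∧
      ∀ w : W, g' w = (l (A.F i u))⁻¹ • tg A i u
        ![-((l (A.F i u))⁻¹ * l (fderiv ℂ (A.F i) u w)), w 0, w 1] := by
  have hF : HasFDerivAt (A.F i) (fderiv ℂ (A.F i) u) u :=
    ((A.diff i).differentiableAt ((A.openD i).mem_nhds hu)).hasFDerivAt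
  have hs : HasFDerivAt (fun x => l (A.F i x)) (l.comp (fderiv ℂ (A.F i) u)) u :=
    l.hasFDerivAt.comp u hF
  have hc : HasFDerivAt (fun x => (l (A.F i x))⁻¹)
      ((-(l (A.F i u) ^ 2)⁻¹) • (l.comp (fderiv ℂ (A.F i) u))) u :=
    (hasDerivAt_inv h0).comp_hasFDerivAt u hs
  have hg := hc.fun_smul hF
  refine ⟨_, hg, fun w => ?_⟩
  have hw : fderiv ℂ (A.F i) u w = w 0 • fderiv ℂ (A.F i) u (Pi.single 0 1)
      + w 1 • fderiv ℂ (A.F i) u (Pi.single 1 1) := by
    conv_lhs => rw [W_decomp w]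
    rw [map_add, map_smul, map_smul]
  have htg : tg A i u ![-((l (A.F i u))⁻¹ * l (fderiv ℂ (A.F i) u w)), w 0, w 1]
      = (-((l (A.F i u))⁻¹ * l (fderiv ℂ (A.F i) u w))) • A.F i u + fderiv ℂ (A.F i) u w := by
    unfold tg
    rw [hw]
    simp only [Matrix.cons_val_zero, Matrix.cons_val_one, Matrix.cons_val, add_assoc]
  rw [htg]
  simp only [add_apply, smul_apply,
    ContinuousLinearMap.smulRight_apply, ContinuousLinearMap.comp_apply, smul_eq_mul]
  ext b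
  simp only [Pi.add_apply, Pi.smul_apply, smul_eq_mul]
  field_simp
  ring

theorem jac_aff (A : ProjAtlas C) (M : Fin 4 → Fin n → ℂ) (pr : (Fin n → ℂ) →L[ℂ] W)
    (hpr : ∀ v, pr v = ![lf M 1 v, lf M 2 v]) {i : A.ι} {u : W} (hu : u ∈ A.D i)
    (h0 : lf M 0 (A.F i u) ≠ 0) (hI : Inj3 A M i u) :
    Jac (fun x => pr ((lf M 0 (A.F i x))⁻¹ • A.F i x)) u ≠ 0 := by
  intro hJ
  obtain ⟨g', hg', hval⟩ := hasFDerivAt_aff A (lf M 0) hu h0
  have hp : HasFDerivAt (fun x => pr ((lf M 0 (A.F i x))⁻¹ • A.F i x)) (pr.comp g') u :=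
    pr.hasFDerivAt.comp u hg'
  unfold Jac at hJ
  rw [hp.fderiv] at hJ
  obtain ⟨w, hw, hw0⟩ := (Submodule.ne_bot_iff _).1 (LinearMap.bot_lt_ker_of_det_eq_zero hJ).ne'
  apply hw0
  have hpw : pr (g' w) = 0 := hw
  set s := lf M 0 (A.F i u) with hs
  set c : Fin 3 → ℂ := ![-(s⁻¹ * lf M 0 (fderiv ℂ (A.F i) u w)), w 0, w 1] with hc
  have hgw : g' w = s⁻¹ • tg A i u c := hval w
  have htg : tg A i u c = s • g' w := by
    rw [hgw, smul_smul, mul_inv_cancel₀ h0, one_smul]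
  have h12 : lf M 1 (g' w) = 0 ∧ lf M 2 (g' w) = 0 := by
    rw [hpr] at hpw
    exact ⟨congrFun hpw 0, congrFun hpw 1⟩
  have hDw : fderiv ℂ (A.F i) u w = w 0 • fderiv ℂ (A.F i) u (Pi.single 0 1)
      + w 1 • fderiv ℂ (A.F i) u (Pi.single 1 1) := by
    conv_lhs => rw [W_decomp w]
    rw [map_add, map_smul, map_smul]
  have htg2 : tg A i u c = (-(s⁻¹ * lf M 0 (fderiv ℂ (A.F i) u w))) • A.F i u
      + fderiv ℂ (A.F i) u w := by
    unfold tg
    conv_rhs => rw [hDw]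
    simp only [hc, Matrix.cons_val_zero, Matrix.cons_val_one, Matrix.cons_val, add_assoc]
    rw [← hDw]
  have hl0 : lf M 0 (tg A i u c) = 0 := by
    rw [htg2, map_add, map_smul, smul_eq_mul, ← hs]
    field_simp
    ring
  have hc0 : c = 0 := hI c hl0 (by rw [htg, map_smul, h12.1, smul_zero])
    (by rw [htg, map_smul, h12.2, smul_zero])
  have hw1 : w 0 = 0 := by simpa [hc] using congrFun hc0 1
  have hw2 : w 1 = 0 := by simpa [hc] using congrFun hc0 2
  ext k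
  fin_cases k
  · exact hw1
  · exact hw2

end Vale.Agent.P300.H307
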