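import Vale.Agent.P300.H307.Growth
import Vale.Agent.P300.H307.JacAff
import Vale.Agent.P300.H933.AffP

/-!
# P300 [CHOW]: the affine part
-/

open Complex Filter Set Metric
open scoped Topology

namespace Vale.Agent.P300.H307

open Vale.Agent.P300.H86

variable {n : ℕ} {C : Set (Fin n → ℂ)}

/-- the projection `(l₁, l₂)` -/
noncomputable def prM (M : Fin 4 → Fin n → ℂ) : (Fin n → ℂ) →L[ℂ] W :=
  ContinuousLinearMap.pi ![lf M 1, lf M 2]

theorem prM_apply (M : Fin 4 → Fin n → ℂ) (v : Fin n → ℂ) :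
    prM M v = ![lf M 1 v, lf M 2 v] := by
  ext k
  fin_cases k <;> simp [prM]

/-- the affine part as a structure. -/
noncomputable def affOf (A : ProjAtlas C) (M : Fin 4 → Fin n → ℂ) (hG : Good A M) : Aff n where
  Z := H933A.Zz C M
  ι := A.ι
  cnt := A.cnt
  D := H933A.Dd A M
  f := H933A.ff A M
  pr := prM M
  closed := H933A.closed_Zz A M
  openD := H933A.open_Dd A M
  diff := H933A.diff_ff A M
  inj := H933A.inj_ff A M
  mem := fun i _ hu => H933A.mem_ff A M i hu
  cover := fun _ hv => H933A.cover_ff A M hv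
  openImg := H933A.openImg_ff A M
  growth := by
    obtain ⟨K, hK⟩ := growth_aff A M hG.nozero
    exact ⟨K, fun v hv => by rw [prM_apply]; exact hK v hv.1 hv.2⟩
  dense := by
    intro i U hU hUD hne
    obtain ⟨u, hu, h0, hI⟩ := hG.dense i U hU (fun x hx => (hUD hx).1) hne
    exact ⟨u, hu, jac_aff A M (prM M) (prM_apply M) (hUD hu).1 h0 hI⟩

theorem affPart : AffPart := by
  intro n C A M hG
  refine ⟨affOf A M hG, rfl, prM_apply M, ?_⟩
  intro i u hu h0
  refine ⟨i, u, ⟨hu, h0⟩, rfl, fun hI => ?_⟩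
  exact jac_aff A M (prM M) (prM_apply M) hu h0 hI

end Vale.Agent.P300.H307
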