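import Mathlib

/-!
# The area formula with multiplicity, for maps with invertible derivative
-/

open Filter Set MeasureTheory
open scoped Topology ENNReal NNReal

namespace Vale.Agent.P300.H307

variable {E : Type*} [NormedAddCommGroup E] [NormedSpace ℝ E] [FiniteDimensional ℝ E]
  [MeasurableSpace E] [BorelSpace E] (μ : Measure E) [μ.IsAddHaarMeasure]

/-- the sum of `h` over the fibre of `φ : A → E` over `w`. -/
noncomputable def fsum {α β : Type*} (A : Set α) (φ : α → β) (h : α → ℂ) (w : β) : ℂ :=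
  ∑' u : {u // u ∈ A ∧ φ u = w}, h u

theorem fsum_injOn_of_mem {α β : Type*} {A : Set α} {φ : α → β} (h : α → ℂ) (hi : InjOn φ A)
    {u : α} (hu : u ∈ A) : fsum A φ h (φ u) = h u := by
  unfold fsum
  rw [tsum_eq_single (⟨u, hu, rfl⟩ : {v // v ∈ A ∧ φ v = φ u})]
  rintro ⟨v, hv, hvu⟩ hne
  exact absurd (Subtype.ext (hi hv hu hvu)) hne

theorem fsum_eq_zero {α β : Type*} {A : Set α} {φ : α → β} (h : α → ℂ) {w : β}
    (hw : w ∉ φ '' A) : fsum A φ h w = 0 := by
  unfold fsum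
  have : IsEmpty {u // u ∈ A ∧ φ u = w} := ⟨fun ⟨u, hu, hw'⟩ => hw ⟨u, hu, hw'⟩⟩
  exact tsum_empty

/-- splitting the fibre sum along a countable partition into pieces of injectivity. -/
theorem fsum_eq_tsum {α β : Type*} {D : Set α} {φ : α → β} (h : α → ℂ) (t : ℕ → Set α)
    (hd : Pairwise (Function.onFun Disjoint t)) (hc : D ⊆ ⋃ n, t n)
    (hi : ∀ n, InjOn φ (D ∩ t n)) (w : β) :
    fsum D φ h w = ∑' n, fsum (D ∩ t n) φ h w := by
  classical
  have hex : ∀ u : {u // u ∈ D ∧ φ u = w}, ∃ n, (u : α) ∈ t n := by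
    rintro ⟨u, hu, _⟩
    simpa using hc hu
  choose idx hidx using hex
  have hinj : Function.Injective idx := by
    rintro ⟨u, hu⟩ ⟨v, hv⟩ huv
    apply Subtype.ext
    refine hi (idx ⟨u, hu⟩) ⟨hu.1, hidx _⟩ ⟨hv.1, ?_⟩ (hu.2.trans hv.2.symm)
    rw [huv]; exact hidx _
  have hsup : Function.support (fun n => fsum (D ∩ t n) φ h w) ⊆ range idx := by
    intro n hn
    by_contra hcon
    apply hn
    apply fsum_eq_zero
    rintro ⟨u, ⟨huD, hut⟩, huw⟩
    apply hcon
    refine ⟨⟨u, huD, huw⟩, ?_⟩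
    by_contra hne
    exact (hd hne).le_bot ⟨hidx ⟨u, huD, huw⟩, hut⟩
  rw [← hinj.tsum_eq hsup]
  unfold fsum
  refine tsum_congr fun u => ?_
  have := fsum_injOn_of_mem h (hi (idx u)) (u := (u : α)) ⟨u.2.1, hidx u⟩
  rw [u.2.2] at this
  exact this.symm

/-- a partition of a set on which the derivative is invertible into countably many pieces on which
the map is injective. -/
theorem exists_inj_partition {D : Set E} {φ : E → E} {φ' : E → E →L[ℝ] E}
    (hφ : ∀ u ∈ D, HasFDerivWithinAt φ (φ' u) D u) (hdet : ∀ u ∈ D, (φ' u).det ≠ 0) :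
    ∃ t : ℕ → Set E, Pairwise (Function.onFun Disjoint t) ∧ (∀ n, MeasurableSet (t n)) ∧
      D ⊆ ⋃ n, t n ∧ ∀ n, InjOn φ (D ∩ t n) := by
  classical
  -- the radius
  let r : (E →L[ℝ] E) → ℝ≥0 := fun A =>
    if h : A.det ≠ 0 then
      if 0 < ‖((ContinuousLinearMap.toContinuousLinearEquivOfDetNeZero A h).symm : E →L[ℝ] E)‖₊ then
        ‖((ContinuousLinearMap.toContinuousLinearEquivOfDetNeZero A h).symm : E →L[ℝ] E)‖₊⁻¹ / 2
      else 1
    else 1
  have hr : ∀ A, r A ≠ 0 := by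
    intro A
    simp only [r]
    split_ifs with h1 h2
    · positivity
    · exact one_ne_zero
    · exact one_ne_zero
  obtain ⟨t, A, hd, hm, hc, happ, hA⟩ :=
    exists_partition_approximatesLinearOn_of_hasFDerivWithinAt φ D φ' hφ r hr
  refine ⟨t, hd, hm, hc, fun n => ?_⟩
  rcases D.eq_empty_or_nonempty with rfl | hne
  · simp
  obtain ⟨y, hy, hAy⟩ := hA hne n
  have hdetA : (A n).det ≠ 0 := by rw [hAy]; exact hdet y hy
  have happn := happ n
  have heq : A n = ((ContinuousLinearMap.toContinuousLinearEquivOfDetNeZero (A n) hdetA :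
      E ≃L[ℝ] E) : E →L[ℝ] E) := by
    ext x; simp
  by_cases hN : 0 < ‖((ContinuousLinearMap.toContinuousLinearEquivOfDetNeZero (A n) hdetA).symm :
      E →L[ℝ] E)‖₊
  · have hrn : r (A n) = ‖((ContinuousLinearMap.toContinuousLinearEquivOfDetNeZero (A n)
        hdetA).symm : E →L[ℝ] E)‖₊⁻¹ / 2 := by
      simp only [r, dif_pos hdetA, if_pos hN]
    have h2 : ApproximatesLinearOn φ ((ContinuousLinearMap.toContinuousLinearEquivOfDetNeZero
        (A n) hdetA : E ≃L[ℝ] E) : E →L[ℝ] E) (D ∩ t n) (r (A n)) := by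
      rw [← heq]; exact happn
    refine h2.injOn (Or.inr ?_)
    rw [hrn]
    exact NNReal.half_lt_self (inv_ne_zero hN.ne')
  · -- the space is trivial
    have hz : ((ContinuousLinearMap.toContinuousLinearEquivOfDetNeZero (A n) hdetA).symm :
        E →L[ℝ] E) = 0 := by
      have : ‖((ContinuousLinearMap.toContinuousLinearEquivOfDetNeZero (A n) hdetA).symm :
        E →L[ℝ] E)‖₊ = 0 := by
        by_contra h0
        exact hN (pos_iff_ne_zero.2 h0)
      exact nnnorm_eq_zero.1 this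
    have hsub : Subsingleton E := by
      refine ⟨fun a b => ?_⟩
      have h1 : ∀ x : E, x = 0 := by
        intro x
        have h3 := DFunLike.congr_fun hz
            ((ContinuousLinearMap.toContinuousLinearEquivOfDetNeZero (A n) hdetA) x)
        rw [ContinuousLinearEquiv.coe_coe, ContinuousLinearEquiv.symm_apply_apply] at h3
        exact h3
      rw [h1 a, h1 b]
    intro a _ b _ _
    exact Subsingleton.elim a b

/-- **Area formula with multiplicity.** -/
theorem area {D : Set E} (hD : MeasurableSet D) {φ : E → E} {φ' : E → E →L[ℝ] E}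
    (hφ : ∀ u ∈ D, HasFDerivWithinAt φ (φ' u) D u) (hdet : ∀ u ∈ D, (φ' u).det ≠ 0)
    {h : E → ℂ} (hint : IntegrableOn (fun u => |(φ' u).det| • h u) D μ) :
    Integrable (fsum D φ h) μ ∧ ∫ w, fsum D φ h w ∂μ = ∫ u in D, |(φ' u).det| • h u ∂μ := by
  obtain ⟨t, hd, hm, hc, hi⟩ := exists_inj_partition hφ hdet
  have hA : ∀ n, MeasurableSet (D ∩ t n) := fun n => hD.inter (hm n)
  have hφA : ∀ n, ∀ u ∈ D ∩ t n, HasFDerivWithinAt φ (φ' u) (D ∩ t n) u := fun n u hu =>
    (hφ u hu.1).mono inter_subset_left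
  -- integrals over the pieces
  have hpiece : ∀ n, Integrable (fsum (D ∩ t n) φ h) μ ∧
      (∫ w, fsum (D ∩ t n) φ h w ∂μ = ∫ u in D ∩ t n, |(φ' u).det| • h u ∂μ) ∧
      (∫ w, ‖fsum (D ∩ t n) φ h w‖ ∂μ = ∫ u in D ∩ t n, ‖|(φ' u).det| • h u‖ ∂μ) := by
    intro n
    have hcong : ∀ u ∈ D ∩ t n, |(φ' u).det| • fsum (D ∩ t n) φ h (φ u) = |(φ' u).det| • h u :=
      fun u hu => by rw [fsum_injOn_of_mem h (hi n) hu]
    have hsupp : Function.support (fsum (D ∩ t n) φ h) ⊆ φ '' (D ∩ t n) := by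
      intro w hw
      by_contra hcon
      exact hw (fsum_eq_zero h hcon)
    have h1 : IntegrableOn (fsum (D ∩ t n) φ h) (φ '' (D ∩ t n)) μ := by
      rw [integrableOn_image_iff_integrableOn_abs_det_fderiv_smul μ (hA n) (hφA n) (hi n)]
      exact (integrableOn_congr_fun hcong (hA n)).2 (hint.mono_set inter_subset_left)
    refine ⟨(integrableOn_iff_integrable_of_support_subset hsupp).1 h1, ?_, ?_⟩
    · rw [← setIntegral_eq_integral_of_forall_compl_eq_zero (s := φ '' (D ∩ t n))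
        (fun w hw => fsum_eq_zero h hw),
        integral_image_eq_integral_abs_det_fderiv_smul μ (hA n) (hφA n) (hi n)]
      exact setIntegral_congr_fun (hA n) hcong
    · rw [← setIntegral_eq_integral_of_forall_compl_eq_zero (s := φ '' (D ∩ t n))
        (fun w hw => by rw [fsum_eq_zero h hw, norm_zero]),
        integral_image_eq_integral_abs_det_fderiv_smul μ (hA n) (hφA n) (hi n)
          (fun w => ‖fsum (D ∩ t n) φ h w‖)]
      refine setIntegral_congr_fun (hA n) fun u hu => ?_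
      rw [fsum_injOn_of_mem h (hi n) hu, norm_smul, Real.norm_eq_abs, abs_abs, smul_eq_mul]
  have hpd : Pairwise (Function.onFun Disjoint fun n => D ∩ t n) := fun i j hij =>
    (hd hij).mono inter_subset_right inter_subset_right
  have hUn : (⋃ n, D ∩ t n) = D := by
    rw [← inter_iUnion]; exact inter_eq_left.2 hc
  have hsumn : HasSum (fun n => ∫ w, ‖fsum (D ∩ t n) φ h w‖ ∂μ)
      (∫ u in D, ‖|(φ' u).det| • h u‖ ∂μ) := by
    have := hasSum_integral_iUnion (μ := μ) (f := fun u => ‖|(φ' u).det| • h u‖) hA hpd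
      (by rw [hUn]; exact hint.norm)
    rw [hUn] at this
    simpa only [fun n => (hpiece n).2.2] using this
  have hsum : HasSum (fun n => ∫ w, fsum (D ∩ t n) φ h w ∂μ)
      (∫ u in D, |(φ' u).det| • h u ∂μ) := by
    have := hasSum_integral_iUnion (μ := μ) (f := fun u => |(φ' u).det| • h u) hA hpd
      (by rw [hUn]; exact hint)
    rw [hUn] at this
    simpa only [fun n => (hpiece n).2.1] using this
  have hfs : fsum D φ h = fun w => ∑' n, fsum (D ∩ t n) φ h w := by
    funext w; exact fsum_eq_tsum h t hd hc hi w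
  have hS := hasSum_integral_of_summable_integral_norm (fun n => (hpiece n).1) hsumn.summable
  refine ⟨?_, ?_⟩
  · rw [hfs]
    -- integrability of the sum
    have hlt : ∑' n, ∫⁻ w, ‖fsum (D ∩ t n) φ h w‖ₑ ∂μ ≠ ∞ := by
      have hcv : ∀ n, ∫⁻ w, ‖fsum (D ∩ t n) φ h w‖ₑ ∂μ
          = ENNReal.ofReal (∫ w, ‖fsum (D ∩ t n) φ h w‖ ∂μ) := fun n =>
        (ofReal_integral_norm_eq_lintegral_enorm (hpiece n).1).symm
      simp_rw [hcv]
      exact (hsumn.summable.tsum_ofReal_ne_top)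
    have hae : ∀ᵐ w ∂μ, Summable fun n => ‖fsum (D ∩ t n) φ h w‖ := by
      have h1 : ∫⁻ w, ∑' n, ‖fsum (D ∩ t n) φ h w‖ₑ ∂μ ≠ ∞ := by
        rw [lintegral_tsum (fun n => (hpiece n).1.1.enorm)]
        exact hlt
      have h2 := ae_lt_top' (AEMeasurable.tsum fun n => (hpiece n).1.1.enorm) h1
      filter_upwards [h2] with w hw
      have h3 : ∑' n, (‖fsum (D ∩ t n) φ h w‖₊ : ℝ≥0∞) ≠ ∞ := hw.ne
      have h4 := ENNReal.tsum_coe_ne_top_iff_summable.1 h3
      exact NNReal.summable_coe.2 h4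
    have hmeas : AEStronglyMeasurable (fun w => ∑' n, fsum (D ∩ t n) φ h w) μ := by
      refine aestronglyMeasurable_of_tendsto_ae (u := atTop)
        (f := fun N w => ∑ n ∈ Finset.range N, fsum (D ∩ t n) φ h w) ?_ ?_
      · intro N
        have := Finset.aestronglyMeasurable_sum (μ := μ) (Finset.range N)
          (f := fun n => fsum (D ∩ t n) φ h) (fun n _ => (hpiece n).1.1)
        refine this.congr (Eventually.of_forall fun w => ?_)
        simp
      · filter_upwards [hae] with w hw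
        exact hw.of_norm.hasSum.tendsto_sum_nat
    refine ⟨hmeas, ?_⟩
    refine lt_of_le_of_lt (lintegral_mono_ae (g := fun w => ∑' n, ‖fsum (D ∩ t n) φ h w‖ₑ) ?_) ?_
    · filter_upwards [hae] with w hw
      have h3 : ‖∑' n, fsum (D ∩ t n) φ h w‖₊ ≤ ∑' n, ‖fsum (D ∩ t n) φ h w‖₊ :=
        nnnorm_tsum_le (NNReal.summable_coe.1 hw)
      have h4 : Summable fun n => ‖fsum (D ∩ t n) φ h w‖₊ := NNReal.summable_coe.1 hw
      calc ‖∑' n, fsum (D ∩ t n) φ h w‖ₑ = ((‖∑' n, fsum (D ∩ t n) φ h w‖₊ : ℝ≥0) : ℝ≥0∞) := rfl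
        _ ≤ ((∑' n, ‖fsum (D ∩ t n) φ h w‖₊ : ℝ≥0) : ℝ≥0∞) := by exact_mod_cast h3
        _ = ∑' n, ((‖fsum (D ∩ t n) φ h w‖₊ : ℝ≥0) : ℝ≥0∞) := ENNReal.coe_tsum h4
        _ = _ := rfl
    · rw [lintegral_tsum (fun n => (hpiece n).1.1.enorm)]
      exact lt_top_iff_ne_top.2 hlt
  · rw [hfs, ← hS.tsum_eq]
    exact hsum.tsum_eq

end Vale.Agent.P300.H307
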