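import Vale.Agent.P300.H86.Proj

/-!
# P300 [CHOW]: closedness and growth of the affine part
-/

open Complex Filter Set Metric
open scoped Topology

namespace Vale.Agent.P300.H307

open Vale.Agent.P300.H86

variable {n : ℕ} {C : Set (Fin n → ℂ)}

theorem closed_aff (A : ProjAtlas C) (M : Fin 4 → Fin n → ℂ) :
    IsClosed {v | v ∈ C ∧ lf M 0 v = 1} := by
  have h1 : {v | v ∈ C ∧ lf M 0 v = 1} = (C ∪ {0}) ∩ {v | lf M 0 v = 1} := by
    ext v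
    simp only [mem_setOf_eq, mem_inter_iff, mem_union, mem_singleton_iff]
    constructor
    · rintro ⟨h1, h2⟩; exact ⟨Or.inl h1, h2⟩
    · rintro ⟨h1 | h1, h2⟩
      · exact ⟨h1, h2⟩
      · rw [h1, map_zero] at h2; exact absurd h2 zero_ne_one
  rw [h1]
  exact A.closed.inter (isClosed_eq (lf M 0).continuous continuous_const)

theorem growth_aff (A : ProjAtlas C) (M : Fin 4 → Fin n → ℂ)
    (hnz : ∀ v ∈ C, lf M 0 v = 0 → lf M 1 v = 0 → lf M 2 v = 0 → False) :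
    ∃ K : ℝ, ∀ v ∈ C, lf M 0 v = 1 →
      ‖v‖ ≤ K * (1 + ‖(![lf M 1 v, lf M 2 v] : Fin 2 → ℂ)‖) := by
  -- the maximum of the three forms
  set m : (Fin n → ℂ) → ℝ := fun v => max ‖lf M 0 v‖ (max ‖lf M 1 v‖ ‖lf M 2 v‖) with hm
  have hmc : Continuous m := by
    simp only [hm]
    exact ((lf M 0).continuous.norm).max (((lf M 1).continuous.norm).max
      ((lf M 2).continuous.norm))
  have hK : IsCompact ((C ∪ {0}) ∩ sphere (0 : Fin n → ℂ) 1) :=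
    (isCompact_sphere _ _).inter_left A.closed
  have hsc : ∀ (t : ℝ), 0 ≤ t → ∀ v, m ((t : ℂ) • v) = t * m v := by
    intro t ht v
    simp only [hm, map_smul, norm_smul, Complex.norm_real, Real.norm_eq_abs, abs_of_nonneg ht]
    rw [← mul_max_of_nonneg _ _ ht, ← mul_max_of_nonneg _ _ ht]
  have hnorm : ∀ v ∈ C, v ≠ 0 := fun v hv h0 => A.zero (h0 ▸ hv)
  have hunit : ∀ v ∈ C, (((‖v‖⁻¹ : ℝ) : ℂ) • v) ∈ (C ∪ {0}) ∩ sphere (0 : Fin n → ℂ) 1 := by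
    intro v hv
    have h0 : ‖v‖ ≠ 0 := norm_ne_zero_iff.2 (hnorm v hv)
    refine ⟨Or.inl (A.smul v hv _ ?_), ?_⟩
    · exact_mod_cast inv_ne_zero h0
    · rw [mem_sphere_zero_iff_norm, norm_smul, Complex.norm_real, norm_inv, norm_norm,
        inv_mul_cancel₀ h0]
  rcases ((C ∪ {0}) ∩ sphere (0 : Fin n → ℂ) 1).eq_empty_or_nonempty with he | hne
  · refine ⟨0, fun v hv _ => ?_⟩
    have := hunit v hv
    rw [he] at this
    exact absurd this (notMem_empty _)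
  obtain ⟨v₀, hv₀, hmin⟩ := hK.exists_isMinOn hne hmc.continuousOn
  have hv₀C : v₀ ∈ C := by
    rcases hv₀.1 with h | h
    · exact h
    · rw [mem_singleton_iff] at h
      have := hv₀.2
      rw [h, mem_sphere_zero_iff_norm, norm_zero] at this
      exact absurd this zero_ne_one
  have hc : 0 < m v₀ := by
    by_contra hle
    push Not at hle
    have h0 : ‖lf M 0 v₀‖ ≤ 0 := (le_max_left _ _).trans hle
    have h1 : ‖lf M 1 v₀‖ ≤ 0 := ((le_max_left _ _).trans (le_max_right _ _)).trans hle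
    have h2 : ‖lf M 2 v₀‖ ≤ 0 := ((le_max_right _ _).trans (le_max_right _ _)).trans hle
    exact hnz v₀ hv₀C (norm_le_zero_iff.1 h0) (norm_le_zero_iff.1 h1) (norm_le_zero_iff.1 h2)
  refine ⟨(m v₀)⁻¹, fun v hv hv1 => ?_⟩
  have h0 : 0 < ‖v‖ := norm_pos_iff.2 (hnorm v hv)
  have h1 : m v₀ ≤ ‖v‖⁻¹ * m v := by
    have := hmin (hunit v hv)
    rwa [mem_setOf_eq, hsc _ (inv_nonneg.2 h0.le)] at this
  have h2 : m v ≤ 1 + ‖(![lf M 1 v, lf M 2 v] : Fin 2 → ℂ)‖ := by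
    have e1 : ‖lf M 1 v‖ ≤ ‖(![lf M 1 v, lf M 2 v] : Fin 2 → ℂ)‖ :=
      norm_le_pi_norm (![lf M 1 v, lf M 2 v] : Fin 2 → ℂ) 0
    have e2 : ‖lf M 2 v‖ ≤ ‖(![lf M 1 v, lf M 2 v] : Fin 2 → ℂ)‖ :=
      norm_le_pi_norm (![lf M 1 v, lf M 2 v] : Fin 2 → ℂ) 1
    have e3 : 0 ≤ ‖(![lf M 1 v, lf M 2 v] : Fin 2 → ℂ)‖ := norm_nonneg _
    refine max_le ?_ (max_le ?_ ?_)
    · rw [hv1, norm_one]; linarith
    · linarith
    · linarith
  have h3 : ‖v‖ * m v₀ ≤ m v := by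
    calc ‖v‖ * m v₀ ≤ ‖v‖ * (‖v‖⁻¹ * m v) := by gcongr
      _ = m v := by rw [← mul_assoc, mul_inv_cancel₀ h0.ne', one_mul]
  calc ‖v‖ = (m v₀)⁻¹ * (‖v‖ * m v₀) := by field_simp
    _ ≤ (m v₀)⁻¹ * m v := by gcongr
    _ ≤ (m v₀)⁻¹ * (1 + ‖(![lf M 1 v, lf M 2 v] : Fin 2 → ℂ)‖) := by gcongr

end Vale.Agent.P300.H307
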