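import Vale.Agent.P300.H86.Spec

/-!
# P300 [CHOW]: the ambient partition of unity [PU] and the generic finiteness [FINF]
-/

open Complex Filter Set MeasureTheory Metric
open scoped Topology ContDiff ENNReal Manifold

namespace Vale.Agent.P300.H307

open Vale.Agent.P300.H86

variable {n : ℕ} (S : Aff n)

theorem isCompact_over {K : Set W} (hK : IsCompact K) :
    IsCompact {v | v ∈ S.Z ∧ S.pr v ∈ K} := by
  refine Metric.isCompact_of_isClosed_isBounded ?_ ?_
  · exact S.closed.inter (hK.isClosed.preimage S.pr.continuous)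
  · obtain ⟨C, hC⟩ := S.growth
    obtain ⟨R, hR⟩ := hK.isBounded.exists_norm_le
    rw [isBounded_iff_forall_norm_le]
    refine ⟨|C| * (1 + R), fun v hv => ?_⟩
    have h0 : 0 ≤ ‖S.pr v‖ := norm_nonneg _
    calc ‖v‖ ≤ C * (1 + ‖S.pr v‖) := hC v hv.1
      _ ≤ |C| * (1 + ‖S.pr v‖) := by
          apply mul_le_mul_of_nonneg_right (le_abs_self C); linarith
      _ ≤ |C| * (1 + R) := by
          apply mul_le_mul_of_nonneg_left _ (abs_nonneg C)
          linarith [hR _ hv.2]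

theorem puProp : S.PUProp := by
  classical
  intro K hK
  have hKc := isCompact_over S hK
  set K' : Set (Fin n → ℂ) := {v | v ∈ S.Z ∧ S.pr v ∈ K} with hK'
  -- local neighbourhoods
  have hloc : ∀ v ∈ K', ∃ (i : S.ι) (N : Set (Fin n → ℂ)), IsOpen N ∧ v ∈ N ∧
      S.Z ∩ N ⊆ S.f i '' S.D i ∧ Bornology.IsBounded N := by
    intro v hv
    obtain ⟨i, u, hu, huv⟩ := S.cover v hv.1
    have h1 := S.openImg i u hu univ univ_mem
    rw [univ_inter, huv, mem_nhdsWithin] at h1
    obtain ⟨N, hN, hvN, hsub⟩ := h1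
    refine ⟨i, N ∩ ball v 1, hN.inter isOpen_ball, ⟨hvN, mem_ball_self one_pos⟩, ?_, ?_⟩
    · rintro x ⟨hxZ, hxN, _⟩
      exact hsub ⟨hxN, hxZ⟩
    · exact isBounded_ball.subset inter_subset_right
  choose! i N hNo hvN hsub hbd using hloc
  obtain ⟨t, htK⟩ := hKc.elim_nhds_subcover' (fun v hv => N v)
    (fun v hv => (hNo v hv).mem_nhds (hvN v hv))
  -- reindex by `Fin m`
  let e := t.equivFin
  set m := t.card with hm
  have hcov' : K' ⊆ ⋃ k : Fin m, N ((e.symm k : {x // x ∈ t}) : K') := by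
    intro v hv
    have := htK hv
    simp only [mem_iUnion] at this
    obtain ⟨x, hx, hvx⟩ := this
    exact mem_iUnion.2 ⟨e ⟨x, hx⟩, by simpa using hvx⟩
  have hUo : IsOpen (⋃ k : Fin m, N ((e.symm k : {x // x ∈ t}) : K')) :=
    isOpen_iUnion fun k => hNo _ ((e.symm k : {x // x ∈ t}) : K').2
  obtain ⟨O, hO, hKO, hOU, -⟩ := exists_open_between_and_isCompact_closure hKc hUo hcov'
  obtain ⟨F, hF⟩ := SmoothPartitionOfUnity.exists_isSubordinate (𝓘(ℝ, Fin n → ℂ))
    (s := closure O) isClosed_closure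
    (fun k : Fin m => N ((e.symm k : {x // x ∈ t}) : K'))
    (fun k => hNo _ ((e.symm k : {x // x ∈ t}) : K').2) hOU
  refine ⟨m, fun k => F k, fun k => i _ ((e.symm k : {x // x ∈ t}) : K').2, ?_, ?_, ?_, O, hO, ?_, ?_⟩
  · intro k
    exact (F k).contMDiff.contDiff
  · intro k
    have h1 : Bornology.IsBounded (tsupport (F k)) :=
      (hbd _ ((e.symm k : {x // x ∈ t}) : K').2).subset (hF k)
    exact Metric.isCompact_of_isClosed_isBounded (isClosed_tsupport _) h1
  · intro k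
    exact (inter_subset_inter_right _ (hF k)).trans (hsub _ ((e.symm k : {x // x ∈ t}) : K').2)
  · intro v hv hvK
    exact hKO ⟨hv, hvK⟩
  · intro x hx
    have := F.sum_eq_one (subset_closure hx)
    rwa [finsum_eq_sum_of_fintype] at this

theorem finfProp : S.FinfProp := by
  have := S.cnt
  have hp : ∀ i, DifferentiableOn ℂ (S.p i) (S.D i) := fun i =>
    S.pr.differentiable.comp_differentiableOn (S.diff i)
  have h1 : ∀ i, ∀ᵐ w : W, w ∉ S.p i '' {u | u ∈ S.D i ∧ Jac (S.p i) u = 0} := fun i =>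
    measure_eq_zero_iff_ae_notMem.1 (sard (S.openD i) (hp i))
  filter_upwards [ae_all_iff.2 h1] with w hw
  have hnc : ∀ i, ∀ u ∈ S.D i, S.p i u = w → Jac (S.p i) u ≠ 0 := fun i u hu huw hJ =>
    hw i ⟨u, ⟨hu, hJ⟩, huw⟩
  refine ⟨?_, hnc⟩
  by_contra hinf
  have hfc : IsCompact (S.fib w) := by
    have := isCompact_over S (isCompact_singleton (x := w))
    exact this
  obtain ⟨v, hv, hacc⟩ := Set.Infinite.exists_accPt_of_subset_isCompact hinf hfc subset_rfl
  obtain ⟨i, u, hu, huv⟩ := S.cover v hv.1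
  have hpu : S.p i u = w := by unfold Aff.p; rw [huv]; exact hv.2
  obtain ⟨e, hue, hes, hep, -⟩ := exists_localInverse (S.openD i) (hp i) hu (hnc i u hu hpu)
  have himg := S.openImg i u hu e.source (e.open_source.mem_nhds hue)
  rw [huv, mem_nhdsWithin] at himg
  obtain ⟨N, hN, hvN, hsub⟩ := himg
  rw [accPt_iff_nhds] at hacc
  obtain ⟨v', ⟨hv'N, hv'f⟩, hne⟩ := hacc N (hN.mem_nhds hvN)
  obtain ⟨u', ⟨hu's, hu'D⟩, hu'v⟩ := hsub ⟨hv'N, hv'f.1⟩
  have hpu' : S.p i u' = w := by unfold Aff.p; rw [hu'v]; exact hv'f.2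
  have : u' = u := e.injOn hu's hue (by rw [hep, hpu', hpu])
  apply hne
  rw [← hu'v, this, huv]

end Vale.Agent.P300.H307
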